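import Mathlib
import Vale.Agent.P043.Space.Masks.Main

/-!
Helper for P043: two zeros on one cyclic chain of characters give a periodic tiling of a set of
`p ^ 2` points.
-/

namespace Vale.Agent.P043.Space.Square

open Finset Masks

variable {d : ℕ}

/-- The character `r / p ^ N` kills `F`. -/
def Zero (F : Finset (Fin d → ℤ)) (p N : ℕ) (r : Fin d → ℤ) : Prop :=
  ∑ g ∈ F, ee ((dot r g : ℝ) / (p ^ N : ℕ)) = 0

/-- The character `r / p ^ N` takes a value of order `p ^ j` at `w`. -/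
def Level (p j N : ℕ) (r w : Fin d → ℤ) : Prop :=
  ∃ c : ℤ, ¬(p : ℤ) ∣ c ∧ dot r w * (p : ℤ) ^ j = c * (p : ℤ) ^ N

theorem not_zero_zero {F : Finset (Fin d → ℤ)} (hF : F.Nonempty) (p : ℕ) (r : Fin d → ℤ) :
    ¬Zero F p 0 r := fun h => by
  simp only [Zero, pow_zero, Nat.cast_one, div_one] at h
  rw [sum_congr rfl fun g _ => ee_eq_one_iff.2 ⟨dot r g, rfl⟩] at h
  simp at h
  exact hF.ne_empty h

theorem ee_mod {M : ℕ} (hM : 0 < M) (c e : ℤ) :
    ee ((c * e : ℤ) / (M : ℝ)) = ee ((c : ℝ) / M) ^ (e % M).toNat := by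
  have h0 : 0 ≤ e % (M : ℤ) := Int.emod_nonneg _ (by exact_mod_cast hM.ne')
  rw [← ee_nat_mul]
  refine ee_congr ⟨c * (e / M), ?_⟩
  have h2 : (e : ℝ) = (M : ℝ) * ((e / M : ℤ) : ℝ) + ((e % (M : ℤ)).toNat : ℝ) := by
    rw [show ((e % (M : ℤ)).toNat : ℝ) = (((e % (M : ℤ)).toNat : ℤ) : ℝ) from
      (Int.cast_natCast _).symm, Int.toNat_of_nonneg h0]
    exact_mod_cast (Int.mul_ediv_add_emod e M).symm
  have : (M : ℝ) ≠ 0 := by exact_mod_cast hM.ne'
  push_cast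
  rw [h2]
  field_simp
  ring

theorem primitive_ee {p j : ℕ} (hp : p.Prime) {c : ℤ} (hc : ¬(p : ℤ) ∣ c) :
    IsPrimitiveRoot (ee ((c : ℝ) / (p ^ j : ℕ))) (p ^ j) := by
  have hM : p ^ j ≠ 0 := pow_ne_zero _ hp.ne_zero
  have h := (Complex.isPrimitiveRoot_exp (p ^ j) hM).zpow_of_gcd_eq_one c (by
    rw [← Int.isCoprime_iff_gcd_eq_one, Nat.cast_pow]
    exact IsCoprime.pow_right (((Nat.prime_iff_prime_int.1 hp).coprime_iff_not_dvd.2 hc).symm))
  have e : ee ((c : ℝ) / (p ^ j : ℕ)) =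
      Complex.exp (2 * Real.pi * Complex.I / (p ^ j : ℕ)) ^ c := by
    rw [ee, ← Complex.exp_int_mul]
    push_cast
    ring_nf
  rw [e]; exact h

/-- A vanishing sum of roots of order `p ^ j` vanishes at all conjugates. -/
theorem sum_ee_conj {α : Type*} (t : Finset α) (e : α → ℤ) {p j : ℕ} (hp : p.Prime) {c c' : ℤ}
    (hc : ¬(p : ℤ) ∣ c) (hc' : ¬(p : ℤ) ∣ c')
    (h : ∑ g ∈ t, ee ((c * e g : ℤ) / ((p ^ j : ℕ) : ℝ)) = 0) :
    ∑ g ∈ t, ee ((c' * e g : ℤ) / ((p ^ j : ℕ) : ℝ)) = 0 := by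
  have hM : 0 < p ^ j := pow_pos hp.pos j
  have h1 := primitive_ee (j := j) hp hc
  have h2 := primitive_ee (j := j) hp hc'
  set P : Polynomial ℤ := ∑ g ∈ t, Polynomial.X ^ (e g % (p ^ j : ℕ)).toNat with hP
  have hev : ∀ a : ℤ, Polynomial.aeval (ee ((a : ℝ) / (p ^ j : ℕ))) P =
      ∑ g ∈ t, ee ((a * e g : ℤ) / ((p ^ j : ℕ) : ℝ)) := fun a => by
    rw [hP, map_sum]
    exact sum_congr rfl fun g _ => by rw [map_pow, Polynomial.aeval_X, ee_mod hM]
  obtain ⟨Q, hQ⟩ : Polynomial.cyclotomic (p ^ j) ℤ ∣ P := by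
    rw [Polynomial.cyclotomic_eq_minpoly h1 hM]
    exact minpoly.isIntegrallyClosed_dvd (h1.isIntegral hM) (by rw [hev, h])
  rw [← hev, hQ, map_mul, Polynomial.cyclotomic_eq_minpoly h2 hM, minpoly.aeval, zero_mul]

/-- If the fibres are killed, so is the whole set. -/
theorem sum_eq_zero_of_fib {F : Finset (Fin d → ℤ)} (Λ : AddSubgroup (Fin d → ℤ))
    {θ : (Fin d → ℤ) → ℂ} (h : ∀ f ∈ F, ∑ g ∈ fib F Λ f, θ g = 0) : ∑ g ∈ F, θ g = 0 := by
  classical
  rw [← sum_fiberwise_of_maps_to (g := fun g => fib F Λ g)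
    (t := F.image fun g => fib F Λ g) fun g hg => mem_image_of_mem _ hg]
  refine sum_eq_zero fun s hs => ?_
  obtain ⟨f, hf, rfl⟩ := mem_image.1 hs
  refine (sum_congr ?_ fun _ _ => rfl).trans (h f hf)
  ext g
  rw [mem_filter]
  constructor
  · rintro ⟨hg, e⟩
    have : g ∈ fib F Λ g := mem_fib.2 ⟨hg, by simp⟩
    rwa [e] at this
  · intro hg
    obtain ⟨hgF, hgf⟩ := mem_fib.1 hg
    refine ⟨hgF, ?_⟩
    ext k
    simp only [mem_fib, SetLike.mem_coe]
    refine and_congr_right fun _ => ?_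
    rw [← sub_add_sub_cancel k g f]
    exact (Λ.add_mem_cancel_right hgf).symm

theorem sum_range_ee {P : ℕ} {M : ℕ} (hM : 0 < M) {c : ℤ} (hne : ¬(M : ℤ) ∣ c)
    (hdvd : (M : ℤ) ∣ c * P) : ∑ a ∈ range P, ee ((c * a : ℤ) / (M : ℝ)) = 0 := by
  have hMR : (M : ℝ) ≠ 0 := by exact_mod_cast hM.ne'
  have h1 : ∀ a : ℕ, ee ((c * a : ℤ) / (M : ℝ)) = ee ((c : ℝ) / M) ^ a := fun a => by
    rw [← ee_nat_mul]; push_cast; ring_nf
  rw [sum_congr rfl fun a _ => h1 a, geom_sum_eq]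
  · obtain ⟨z, hz⟩ := hdvd
    rw [← ee_nat_mul, ee_eq_one_iff.2 ⟨z, ?_⟩]
    · simp
    · have : (c : ℝ) * P = M * z := by exact_mod_cast hz
      field_simp
      linarith
  · rw [Ne, ee_eq_one_iff]
    rintro ⟨z, hz⟩
    refine hne ⟨z, ?_⟩
    rw [div_eq_iff hMR] at hz
    rw [mul_comm]
    exact_mod_cast hz

theorem sum_range_level {M : ℕ} (hM : 0 < M) (c : ℤ) :
    ∑ l ∈ range M, ee ((c * l : ℤ) / (M : ℝ)) = if (M : ℤ) ∣ c then (M : ℂ) else 0 := by
  split_ifs with h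
  · obtain ⟨z, rfl⟩ := h
    have hMR : (M : ℝ) ≠ 0 := by exact_mod_cast hM.ne'
    rw [sum_congr rfl fun (l : ℕ) _ => ee_eq_one_iff.2 ⟨z * l, by push_cast; field_simp⟩]
    simp
  · exact sum_range_ee hM h (dvd_mul_left _ _)

/-- Two zeros on one chain give a periodic tiling by digits. -/
theorem periodic_of_chain {F : Finset (Fin d → ℤ)} {p N K : ℕ} (hp : p.Prime)
    (hF : F.card = p ^ 2) {r : Fin d → ℤ} (hK : 1 ≤ K) (hKN : K < N) (hzN : Zero F p N r)
    (hzK : Zero F p K r) :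
    ∃ (A' : Set (Fin d → ℤ)) (P : ℤ), 0 < P ∧ Tiles A' F ∧ ∀ y w, (y + P • w ∈ A' ↔ y ∈ A') := by
  classical
  have hM : 0 < p ^ N := pow_pos hp.pos N
  set P₁ := p ^ (K - 1) with hP₁
  set P₂ := p ^ (N - K - 1) with hP₂
  set I := range P₁ ×ˢ range P₂ with hI
  let dig : ℕ × ℕ → ℤ := fun q => (q.1 : ℤ) + (p : ℤ) ^ K * q.2
  have hcnt : ∀ x : ℤ,
      ((F ×ˢ I).filter fun q => ((p ^ N : ℕ) : ℤ) ∣ x - dot r q.1 - dig q.2).card = 1 := by
    intro x
    set T := (F ×ˢ I).filter fun q => ((p ^ N : ℕ) : ℤ) ∣ x - dot r q.1 - dig q.2 with hT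
    have h1 : (T.card : ℂ) * (p ^ N : ℕ) = ∑ l ∈ range (p ^ N), ∑ q ∈ F ×ˢ I,
        ee (((x - dot r q.1 - dig q.2) * l : ℤ) / ((p ^ N : ℕ) : ℝ)) := by
      rw [sum_comm, sum_congr rfl fun q _ => sum_range_level hM _, ← sum_filter, sum_const,
        nsmul_eq_mul]
    have h2 : ∀ l ∈ range (p ^ N), l ≠ 0 → ∑ q ∈ F ×ˢ I,
        ee (((x - dot r q.1 - dig q.2) * l : ℤ) / ((p ^ N : ℕ) : ℝ)) = 0 := by
      intro l hl hl0
      have hsplit : ∀ q ∈ F ×ˢ I, ee (((x - dot r q.1 - dig q.2) * l : ℤ) / ((p ^ N : ℕ) : ℝ)) =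
          ee ((x * l : ℤ) / ((p ^ N : ℕ) : ℝ)) * (ee ((-(l : ℤ) * dot r q.1 : ℤ) / ((p ^ N : ℕ) : ℝ))
            * (ee ((-(l : ℤ) * q.2.1 : ℤ) / ((p ^ N : ℕ) : ℝ)) *
              ee ((-(l : ℤ) * (p : ℤ) ^ K * q.2.2 : ℤ) / ((p ^ N : ℕ) : ℝ)))) := fun q _ => by
        simp only [← ee_add, dig]
        congr 1
        push_cast
        ring
      rw [sum_congr rfl hsplit, ← mul_sum, sum_product]
      simp only [hI, sum_product, ← mul_sum, ← sum_mul]
      obtain ⟨v, c, hc, rfl⟩ : ∃ v c : ℕ, ¬p ∣ c ∧ l = p ^ v * c :=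
        Nat.exists_eq_pow_mul_and_not_dvd hl0 p hp.ne_one
      have hv : v < N := by
        by_contra hv
        have := mem_range.1 hl
        have h3 : p ^ N ≤ p ^ v * c := (Nat.pow_le_pow_right hp.pos (not_lt.1 hv)).trans
          (Nat.le_mul_of_pos_right _ (Nat.pos_of_ne_zero fun e => hc (e ▸ dvd_zero p)))
        omega
      have hcZ : ¬(p : ℤ) ∣ -(c : ℤ) := by rw [dvd_neg]; exact_mod_cast hc
      have hpow : ((p ^ N : ℕ) : ℤ) = (p : ℤ) ^ v * (p : ℤ) ^ (N - v) := by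
        rw [← pow_add, show v + (N - v) = N by omega]; push_cast; ring
      rcases Nat.lt_trichotomy (N - v) K with hlt | heq | hgt
      · refine mul_eq_zero_of_right _ (mul_eq_zero_of_right _ (mul_eq_zero_of_left ?_ _))
        refine sum_range_ee hM (fun ⟨z, hz⟩ => hcZ ?_) ⟨-(c : ℤ) * (p : ℤ) ^ (K - 1 - (N - v)), ?_⟩
        · refine dvd_trans (dvd_pow_self _ (show N - v ≠ 0 by omega)) ⟨z, ?_⟩
          rw [hpow] at hz
          push_cast at hz
          exact mul_left_cancel₀ (pow_ne_zero v (by exact_mod_cast hp.ne_zero : (p : ℤ) ≠ 0))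
            (by linear_combination hz)
        · rw [hpow, hP₁]
          push_cast
          rw [show (p : ℤ) ^ (K - 1) = (p : ℤ) ^ (N - v) * (p : ℤ) ^ (K - 1 - (N - v)) by
            rw [← pow_add]; congr 1; omega]
          ring
      · refine mul_eq_zero_of_right _ (mul_eq_zero_of_left ?_ _)
        have := sum_ee_conj F (fun g => dot r g) hp (c := 1) (c' := -(c : ℤ)) (j := K)
          (by simpa using Int.natCast_dvd_natCast.not.2 hp.not_dvd_one) hcZ
          (by simpa [Zero] using hzK)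
        rw [← this]
        refine sum_congr rfl fun g _ => congrArg ee ?_
        rw [← heq]
        have : (p : ℝ) ≠ 0 := by exact_mod_cast hp.ne_zero
        have e : ((p ^ N : ℕ) : ℝ) = (p : ℝ) ^ v * (p : ℝ) ^ (N - v) := by
          rw [← pow_add, show v + (N - v) = N by omega]; push_cast; ring
        rw [e]
        push_cast
        field_simp
      · by_cases hv0 : v = 0
        · subst hv0
          refine mul_eq_zero_of_right _ (mul_eq_zero_of_left ?_ _)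
          have := sum_ee_conj F (fun g => dot r g) hp (c := 1) (c' := -(c : ℤ)) (j := N)
            (by simpa using Int.natCast_dvd_natCast.not.2 hp.not_dvd_one) hcZ
            (by simpa [Zero] using hzN)
          simpa using this
        refine mul_eq_zero_of_right _ (mul_eq_zero_of_right _ (mul_eq_zero_of_right _ ?_))
        refine sum_range_ee hM (fun ⟨z, hz⟩ => hcZ ?_)
          ⟨-(c : ℤ) * (p : ℤ) ^ (v - 1), ?_⟩
        · refine dvd_trans (dvd_pow_self _ (show N - v - K ≠ 0 by omega)) ⟨z, ?_⟩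
          rw [hpow, show (p : ℤ) ^ (N - v) = (p : ℤ) ^ K * (p : ℤ) ^ (N - v - K) by
            rw [← pow_add]; congr 1; omega] at hz
          push_cast at hz
          exact mul_left_cancel₀ (mul_ne_zero (pow_ne_zero v (by exact_mod_cast hp.ne_zero : (p : ℤ) ≠ 0))
            (pow_ne_zero K (by exact_mod_cast hp.ne_zero : (p : ℤ) ≠ 0)))
            (by linear_combination hz)
        · rw [hP₂]
          push_cast
          rw [show (p : ℤ) ^ v = p * (p : ℤ) ^ (v - 1) by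
              rw [← pow_succ']; congr 1; omega,
            show (p : ℤ) ^ N = p * (p : ℤ) ^ K * (p : ℤ) ^ (N - K - 1) by
              rw [← pow_succ', ← pow_add]; congr 1; omega]
          ring
    have h3 : ∑ l ∈ range (p ^ N), ∑ q ∈ F ×ˢ I,
        ee (((x - dot r q.1 - dig q.2) * l : ℤ) / ((p ^ N : ℕ) : ℝ)) = ((p ^ N : ℕ) : ℂ) := by
      rw [sum_eq_single 0 h2 (fun h => absurd (mem_range.2 hM) h)]
      simp only [Nat.cast_zero, mul_zero, Int.cast_zero, zero_div, ee_eq_one_iff.2 Rows.isI_zero,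
        sum_const, nsmul_one, hI, card_product, card_range, hF, hP₁, hP₂]
      rw [← pow_add, ← pow_add]
      congr 2
      omega
    have hMC : ((p ^ N : ℕ) : ℂ) ≠ 0 := by exact_mod_cast hM.ne'
    rw [h3] at h1
    exact_mod_cast mul_right_cancel₀ hMC (h1.trans (one_mul _).symm)
  refine ⟨{y | ∃ q ∈ I, ((p ^ N : ℕ) : ℤ) ∣ dot r y - dig q}, ((p ^ N : ℕ) : ℤ),
    by exact_mod_cast hM, fun x => ?_, fun y w => ?_⟩
  · obtain ⟨q, hq⟩ := card_eq_one.1 (hcnt (dot r x))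
    have hq1 := mem_filter.1 (hq ▸ mem_singleton_self q)
    refine ⟨q.1, ⟨(mem_product.1 hq1.1).1, q.2, (mem_product.1 hq1.1).2, by
      rw [map_sub]; exact hq1.2⟩, ?_⟩
    rintro g ⟨hg, s, hs, hdvd⟩
    rw [map_sub] at hdvd
    have : (g, s) ∈ ({q} : Finset _) := hq ▸ mem_filter.2 ⟨mem_product.2 ⟨hg, hs⟩, hdvd⟩
    exact congrArg Prod.fst (mem_singleton.1 this)
  · simp only [Set.mem_ofPred_eq, map_add, dot_smul, add_sub_right_comm,
      dvd_add_left (dvd_mul_right _ _)]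

end Vale.Agent.P043.Space.Square
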