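import Mathlib
import Vale.Agent.P043.Space.Square.Chain

/-!
Helper for P043: the level of a killed line direction, and the two cases it leaves.
-/

namespace Vale.Agent.P043.Space.Square

open Finset Masks

variable {d : ℕ}

theorem exists_eq_pow_mul {p : ℕ} (hp : p.Prime) {ρ : ℤ} (h : ρ ≠ 0) :
    ∃ (v : ℕ) (c : ℤ), ¬(p : ℤ) ∣ c ∧ ρ = (p : ℤ) ^ v * c := by
  obtain ⟨v, c, hc, he⟩ := Nat.exists_eq_pow_mul_and_not_dvd (Int.natAbs_ne_zero.2 h) p hp.ne_one
  have hc' : ¬(p : ℤ) ∣ (c : ℤ) := by exact_mod_cast hc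
  rcases Int.natAbs_eq ρ with e | e <;> rw [he] at e <;> push_cast at e
  · exact ⟨v, c, hc', e⟩
  · exact ⟨v, -(c : ℤ), by rwa [dvd_neg], by rw [e]; ring⟩

/-- A character value is integral or has some level. -/
theorem exists_level {p : ℕ} (hp : p.Prime) (N : ℕ) (r w : Fin d → ℤ) :
    ((p : ℤ) ^ N ∣ dot r w) ∨ ∃ i, 1 ≤ i ∧ i ≤ N ∧ Level p i N r w := by
  by_cases h : (p : ℤ) ^ N ∣ dot r w
  · exact Or.inl h
  obtain ⟨v, c, hc, he⟩ := exists_eq_pow_mul hp (show dot r w ≠ 0 from fun e => h (e.symm ▸ dvd_zero _))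
  have hv : v < N := by
    by_contra hv
    exact h ⟨(p : ℤ) ^ (v - N) * c, by rw [he, ← mul_assoc, ← pow_add]; congr 2; omega⟩
  refine Or.inr ⟨N - v, by omega, by omega, c, hc, ?_⟩
  rw [he, mul_assoc, mul_comm c _, ← mul_assoc, ← pow_add, show v + (N - v) = N by omega]
  ring

/-- Every character of the level of a killed line direction kills the set. -/
theorem zero_of_level {F : Finset (Fin d → ℤ)} {p j m : ℕ} (hp : p.Prime) {r₀ w : Fin d → ℤ}
    (Λ : AddSubgroup (Fin d → ℤ)) (hΛ : ∀ v ∈ Λ, ∃ t : ℤ, v = t • w)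
    (hkill : ∀ f ∈ F, ∑ g ∈ fib F Λ f, ee ((dot r₀ g : ℝ) / (p ^ m : ℕ)) = 0)
    (h₀ : Level p j m r₀ w) {N : ℕ} {r : Fin d → ℤ} (h : Level p j N r w) : Zero F p N r := by
  classical
  refine sum_eq_zero_of_fib Λ fun f hf => ?_
  choose! t ht using hΛ
  have key : ∀ {N : ℕ} {r : Fin d → ℤ} {c : ℤ}, dot r w * (p : ℤ) ^ j = c * (p : ℤ) ^ N →
      ∀ g ∈ fib F Λ f, ee ((dot r g : ℝ) / (p ^ N : ℕ)) = ee ((dot r f : ℝ) / (p ^ N : ℕ)) *
        ee ((c * t (g - f) : ℤ) / ((p ^ j : ℕ) : ℝ)) := by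
    intro N r c hc g hg
    rw [← ee_add]
    congr 1
    have hd : dot r g = dot r f + t (g - f) * dot r w := by
      rw [← dot_smul, ← ht _ (mem_fib.1 hg).2, map_sub]
      ring
    have hp0 : (p : ℝ) ≠ 0 := by exact_mod_cast hp.ne_zero
    have hcR : (dot r w : ℝ) * (p : ℝ) ^ j = c * (p : ℝ) ^ N := by exact_mod_cast hc
    rw [hd]
    push_cast
    field_simp
    linear_combination (t (g - f) : ℝ) * hcR
  obtain ⟨c₀, hc₀, h₀⟩ := h₀
  obtain ⟨c, hc, h⟩ := h
  have h1 := hkill f hf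
  rw [sum_congr rfl (key h₀), ← mul_sum] at h1
  have h2 := (mul_eq_zero.1 h1).resolve_left (ee_ne_zero _)
  rw [sum_congr rfl (key h), ← mul_sum, sum_ee_conj _ (fun g => t (g - f)) hp hc₀ hc h2, mul_zero]

/-- Either two zeros lie on one chain, or every zero has the level of the killed direction. -/
theorem chain_or_level {F : Finset (Fin d → ℤ)} (hF : F.Nonempty) {p j : ℕ} (hp : p.Prime)
    (hj : 1 ≤ j) {w s : Fin d → ℤ} (hs : dot s w = 1)
    (hz : ∀ N r, Level p j N r w → Zero F p N r) :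
    (∃ N K r, 1 ≤ K ∧ K < N ∧ Zero F p N r ∧ Zero F p K r) ∨
      ∀ N r, Zero F p N r → Level p j N r w := by
  by_contra hno
  simp only [not_or, not_forall] at hno
  obtain ⟨hch, N, r, hzero, hlev⟩ := hno
  refine hch ?_
  have hN : 1 ≤ N := Nat.one_le_iff_ne_zero.2 fun e => not_zero_zero hF p r (e ▸ hzero)
  -- a chain from a character with a lower level
  have hlow : ∀ (i : ℕ) (r' : Fin d → ℤ), (∀ g, (p : ℤ) ^ N ∣ dot r' g - dot r g) → i < j →
      Level p j (N + (j - i)) r' w →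
      ∃ N K r, 1 ≤ K ∧ K < N ∧ Zero F p N r ∧ Zero F p K r := fun i r' hr hij hl => by
    refine ⟨N + (j - i), N, r', hN, by omega, hz _ _ hl, ?_⟩
    rw [Zero] at hzero ⊢
    rw [← hzero]
    refine sum_congr rfl fun g _ => ee_congr ?_
    obtain ⟨z, hz⟩ := hr g
    refine ⟨z, ?_⟩
    have : ((p ^ N : ℕ) : ℝ) ≠ 0 := by exact_mod_cast pow_ne_zero N hp.ne_zero
    rw [← sub_div, div_eq_iff this, ← Int.cast_sub, hz]
    push_cast
    ring
  rcases exists_level hp N r w with ⟨q, hq⟩ | ⟨i, hi1, hiN, hl⟩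
  · refine hlow 0 (r + ((p : ℤ) ^ N * (1 - q)) • s) (fun g => ⟨(1 - q) * dot s g, ?_⟩)
      hj ⟨1, (Nat.prime_iff_prime_int.1 hp).not_dvd_one, ?_⟩
    · simp only [dot_apply, Pi.add_apply, Pi.smul_apply, smul_eq_mul, add_mul, mul_assoc,
        sum_add_distrib, ← mul_sum]
      ring
    · simp only [dot_apply, Pi.add_apply, Pi.smul_apply, smul_eq_mul, add_mul, mul_assoc,
        sum_add_distrib, ← mul_sum]
      rw [← dot_apply, ← dot_apply, hq, hs, Nat.sub_zero]
      ring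
  · obtain ⟨c, hc, he⟩ := hl
    rcases lt_trichotomy i j with hij | rfl | hji
    · refine hlow i r (fun g => by simp) hij ⟨c, hc, ?_⟩
      rw [pow_add, show j = i + (j - i) by omega, pow_add, show i + (j - i) - i = j - i by omega,
        ← mul_assoc, he]
      ring
    · exact absurd ⟨c, hc, he⟩ hlev
    · refine ⟨N, N - (i - j), r, ?_, by omega, hzero, hz _ _ ⟨c, hc, ?_⟩⟩
      · by_contra h0
        have h1 : Zero F p 0 r := by
          refine hz 0 r ⟨c, hc, ?_⟩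
          have : N = i - j := by omega
          have hp0 : (p : ℤ) ^ (i - j) ≠ 0 := pow_ne_zero _ (by exact_mod_cast hp.ne_zero)
          refine mul_right_cancel₀ hp0 ?_
          rw [mul_assoc, ← pow_add, show j + (i - j) = i by omega, he, this, pow_zero, mul_one]
        exact not_zero_zero hF p r h1
      · have hp0 : (p : ℤ) ^ (i - j) ≠ 0 := pow_ne_zero _ (by exact_mod_cast hp.ne_zero)
        refine mul_right_cancel₀ hp0 ?_
        rw [mul_assoc, ← pow_add, show j + (i - j) = i by omega, he, mul_assoc, ← pow_add,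
          show N - (i - j) + (i - j) = N by omega]

/-- A generator of the common kernel of two independent forms on `ℤ^3`. -/
theorem exists_generator {a b : Fin 3 → ℤ} (h : Indep a b) :
    ∃ w s : Fin 3 → ℤ, dot s w = 1 ∧ ∀ y, y ∈ ker2 a b ↔ ∃ t : ℤ, y = t • w := by
  set u := cross a b with hu
  set g₁ : ℕ := Int.gcd (u 1) (u 2) with hg₁
  set g : ℕ := Int.gcd (u 0) g₁ with hg
  have hd0 : (g : ℤ) ∣ u 0 := Int.gcd_dvd_left _ _
  have hd1 : (g : ℤ) ∣ u 1 := (Int.gcd_dvd_right _ _).trans (Int.gcd_dvd_left _ _)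
  have hd2 : (g : ℤ) ∣ u 2 := (Int.gcd_dvd_right _ _).trans (Int.gcd_dvd_right _ _)
  obtain ⟨w0, e0⟩ := hd0
  obtain ⟨w1, e1⟩ := hd1
  obtain ⟨w2, e2⟩ := hd2
  have hgw : u = (g : ℤ) • ![w0, w1, w2] := by
    funext k; fin_cases k <;> simp [e0, e1, e2]
  have hg0 : (g : ℤ) ≠ 0 := fun e => cross_ne_zero h (by rw [← hu, hgw, e, zero_smul])
  set s : Fin 3 → ℤ := ![Int.gcdA (u 0) g₁, Int.gcdB (u 0) g₁ * Int.gcdA (u 1) (u 2),
    Int.gcdB (u 0) g₁ * Int.gcdB (u 1) (u 2)] with hs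
  have hsu : dot s u = g := by
    have E1 := Int.gcd_eq_gcd_ab (u 1) (u 2)
    have E := Int.gcd_eq_gcd_ab (u 0) g₁
    have E' : (g : ℤ) = u 0 * Int.gcdA (u 0) g₁ + (g₁ : ℤ) * Int.gcdB (u 0) g₁ := E
    have E1' : (g₁ : ℤ) = u 1 * Int.gcdA (u 1) (u 2) + u 2 * Int.gcdB (u 1) (u 2) := E1
    simp [dot_apply, Fin.sum_univ_three, hs]
    linear_combination -E' - Int.gcdB (u 0) g₁ * E1'
  have hsw : dot s ![w0, w1, w2] = 1 := by
    rw [hgw, dot_smul] at hsu
    exact mul_left_cancel₀ hg0 (hsu.trans (mul_one _).symm)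
  refine ⟨![w0, w1, w2], s, hsw, fun y => ⟨fun hy => ⟨dot s y, funext fun k => ?_⟩, ?_⟩⟩
  · have hp := par_of_ker2 hy
    have hpw : ∀ i l, y i * ![w0, w1, w2] l = y l * ![w0, w1, w2] i := fun i l => by
      have := hp i l
      rw [← hu, hgw] at this
      simp only [Pi.smul_apply, smul_eq_mul] at this
      exact mul_left_cancel₀ hg0 (by linear_combination this)
    calc y k = y k * dot s ![w0, w1, w2] := by rw [hsw, mul_one]
      _ = ∑ l, s l * (y k * ![w0, w1, w2] l) := by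
        rw [dot_apply, mul_sum]; exact sum_congr rfl fun l _ => by ring
      _ = ∑ l, s l * (y l * ![w0, w1, w2] k) := sum_congr rfl fun l _ => by rw [hpw]
      _ = _ := by
        rw [Pi.smul_apply, smul_eq_mul, dot_apply, sum_mul]
        exact sum_congr rfl fun l _ => by ring
  · rintro ⟨t, rfl⟩
    refine ker2_of_par h fun i l => ?_
    rw [← hu, hgw]
    simp only [Pi.smul_apply, smul_eq_mul]
    ring

end Vale.Agent.P043.Space.Square
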