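import Mathlib
import Vale.Agent.P043.Space.Square.Level

/-!
Helper for P043: if all zeros of a set of `p ^ 2` points have the level of one killed direction,
every solution of the dilated equations has constant sums along the killed fibre.
-/

namespace Vale.Agent.P043.Space.Square

open Finset Masks

variable {d : ℕ}

/-- Constant sums along a fibre stay constant along its multiples prime to `p`. -/
theorem flat_mul {φ : (Fin d → ℤ) → ℝ} {p : ℕ} (hp : p.Prime) {u : Fin d → ℤ} {c : ℝ}
    (h : ∀ x, ∑ i ∈ range p, φ (x - (i : ℤ) • u) = c) {q : ℕ} (hq : Nat.Coprime q p)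
    (x : Fin d → ℤ) : ∑ i ∈ range p, φ (x - ((i * q : ℕ) : ℤ) • u) = c := by
  have hper : (p : ℤ) • u ∈ per φ := by
    refine neg_mem_iff.1 fun y => ?_
    have h1 := h y
    have h2 := h (y - (1 : ℤ) • u)
    have e : ∀ i : ℕ, y - (1 : ℤ) • u - (i : ℤ) • u = y - ((i + 1 : ℕ) : ℤ) • u := fun i => by
      push_cast; rw [add_smul]; abel
    simp only [e] at h2
    have h3 := sum_range_succ (fun i => φ (y - (i : ℤ) • u)) p
    rw [sum_range_succ', h1, h2] at h3
    simp only [Nat.cast_zero, zero_smul, sub_zero] at h3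
    rw [← sub_eq_add_neg]
    linarith
  have hmod : ∀ m : ℕ, φ (x - (m : ℤ) • u) = φ (x - ((m % p : ℕ) : ℤ) • u) := fun m => by
    have := zsmul_mem hper (-((m / p : ℕ) : ℤ)) (x - ((m % p : ℕ) : ℤ) • u)
    rw [← this]
    congr 1
    conv_lhs => rw [← Nat.mod_add_div m p]
    push_cast
    module
  have hinj : Set.InjOn (fun i => i * q % p) (range p : Finset ℕ) := by
    intro a ha b hb e
    rw [coe_range, Set.mem_Iio] at ha hb
    have := Nat.ModEq.cancel_right_of_coprime (show p.gcd q = 1 from hq.symm) e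
    rwa [Nat.ModEq, Nat.mod_eq_of_lt ha, Nat.mod_eq_of_lt hb] at this
  have himg : (range p).image (fun i => i * q % p) = range p :=
    eq_of_subset_of_card_le (image_subset_iff.2 fun i _ => mem_range.2 (Nat.mod_lt _ hp.pos))
      (by rw [card_image_of_injOn hinj])
  rw [sum_congr rfl fun i _ => hmod (i * q), ← h x]
  conv_rhs => rw [← himg, sum_image hinj]

/-- All zeros of one level: the fibre sums are `1 / p`. -/
theorem exists_flat {F : Finset (Fin d → ℤ)} {p j : ℕ} (hp : p.Prime) (hF : F.card = p ^ 2)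
    (hj : 1 ≤ j) {w : Fin d → ℤ} (hlev : ∀ N r, Zero F p N r → Level p j N r w) :
    ∀ (n : ℕ) (φ : (Fin d → ℤ) → ℝ), EqnAll F φ → d ≤ Module.finrank ℚ (perQ φ) + n →
      ∃ T : ℕ, 0 < T ∧ Nat.Coprime T p ∧
        ∀ x, ∑ i ∈ range p, φ (x - ((i * T : ℕ) : ℤ) • ((p : ℤ) ^ (j - 1) • w)) = 1 / p := by
  classical
  intro n
  induction n using Nat.strong_induction_on with
  | _ n ih => ?_
  intro φ hφ hn
  set u := (p : ℤ) ^ (j - 1) • w with hu
  clear_value u
  obtain ⟨N, hN, hper⟩ := Adapted.exists_scale φ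
  set Λ := perLat φ with hΛ
  have hsat : ∀ (k : ℤ) z, k ≠ 0 → k • z ∈ Λ → z ∈ Λ := fun k z hk hz => by
    have h1 : toQ (k • z) ∈ perQ φ := hz
    rw [toQ_smul, Submodule.smul_mem_iff] at h1
    · exact h1
    · exact_mod_cast hk
  obtain ⟨t, k, ht, hk, hNtk, htn, hkn⟩ := exists_split_modulus F.card hN
  obtain ⟨m, rfl⟩ : ∃ m, k = p ^ m := by
    obtain ⟨e, he⟩ := exists_dvd_pow F.card hk hkn
    rw [hF, ← pow_mul, Nat.dvd_prime_pow hp] at he
    exact ⟨he.choose, he.choose_spec.2⟩
  have htp : Nat.Coprime t p := Nat.Coprime.coprime_dvd_right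
    (hF ▸ dvd_pow_self p two_ne_zero) htn
  have hφt : Eqn (scale t F) φ := hφ t ht htn
  set F' := scale t F with hF'
  have hF'c : F'.card = p ^ 2 := by rw [hF', card_scale ht, hF]
  choose ψ hψ hψg hψle hsum using fun f =>
    exists_average_fib hφt (Λ : Set (Fin d → ℤ)) hN (fun z hz => hper z hz) f
  -- the other summands have constant fibre sums
  have hrec : ∀ q ∈ (F' ×ˢ F').filter (fun q => q.2 - q.1 ∉ Λ), ∃ T : ℕ, 0 < T ∧ Nat.Coprime T p ∧
      ∀ x, ∑ i ∈ range p, ψ q.1 q.2 (x - ((i * T : ℕ) : ℤ) • u) = 1 / p := by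
    intro q hq
    obtain ⟨hqF, hqn⟩ := mem_filter.1 hq
    have hlt : perQ φ < perQ (ψ q.1 q.2) := by
      refine lt_of_le_of_ne (Submodule.span_mono (Set.image_mono (hψle q.1 q.2))) ?_
      intro e
      have hmem : toQ ((step F' * N) • (q.2 - q.1)) ∈ perQ φ :=
        e ▸ Submodule.subset_span ⟨_, hψg q.1 q.2, rfl⟩
      refine hqn (hsat (step F' * N) _ ?_ hmem)
      simp [step, Nat.factorial_ne_zero, hN.ne']
    have h1 := Submodule.finrank_lt_finrank_of_lt hlt
    have h2 : Module.finrank ℚ (perQ (ψ q.1 q.2)) ≤ d := by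
      simpa using Submodule.finrank_le (perQ (ψ q.1 q.2))
    exact ih (n - 1) (by omega) _ (fun s hs hsn => hψ q.1 _ (hφ s hs hsn) q.2) (by omega)
  choose! T₀ hT₀ hT₀c hT₀s using hrec
  set S := (F' ×ˢ F').filter (fun q => q.2 - q.1 ∉ Λ) with hS
  set T₁ := ∏ q ∈ S, T₀ q with hT₁
  have hT₁0 : 0 < T₁ := prod_pos hT₀
  have hT₁c : Nat.Coprime T₁ p := Nat.Coprime.prod_left hT₀c
  refine ⟨t * T₁, mul_pos ht hT₁0, htp.mul_left hT₁c, ?_⟩
  have hpR : (p : ℝ) ≠ 0 := by exact_mod_cast hp.ne_zero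
  let g₀ : (Fin d → ℤ) → ℝ := fun x =>
    ∑ i ∈ range p, φ (x - ((i * (t * T₁) : ℕ) : ℤ) • u) - 1 / p
  suffices h0 : ∀ x, g₀ x = 0 from fun x => sub_eq_zero.1 (h0 x)
  -- the fibre sums of `g₀` vanish
  have hfibsum : ∀ f ∈ F', ∀ x, ∑ g ∈ fib F' Λ f, g₀ (x - (g - f)) = 0 := by
    intro f hf x
    simp only [g₀, sum_sub_distrib, sum_const, nsmul_eq_mul]
    rw [sum_comm]
    simp only [sub_right_comm x _ (((_ * (t * T₁) : ℕ) : ℤ) • u)]
    rw [sum_congr rfl fun i _ => hsum f (x - ((i * (t * T₁) : ℕ) : ℤ) • u), sum_sub_distrib,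
      sum_comm]
    have hψc : ∀ g ∈ F' \ fib F' Λ f,
        ∑ i ∈ range p, ψ f g (x - ((i * (t * T₁) : ℕ) : ℤ) • u) = 1 / p := by
      intro g hg
      obtain ⟨hgF, hgn⟩ := mem_sdiff.1 hg
      have hq : (f, g) ∈ S := mem_filter.2
        ⟨mem_product.2 ⟨hf, hgF⟩, fun h => hgn (mem_fib.2 ⟨hgF, h⟩)⟩
      obtain ⟨e, he⟩ : T₀ (f, g) ∣ T₁ := dvd_prod_of_mem _ hq
      have hec : Nat.Coprime (t * e) p := htp.mul_left
        (Nat.Coprime.coprime_dvd_left ⟨T₀ (f, g), by rw [he, mul_comm]⟩ hT₁c)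
      have := flat_mul hp (φ := ψ f g) (c := 1 / (p : ℝ)) (u := ((T₀ (f, g) : ℕ) : ℤ) • u) (fun y => by
        rw [← hT₀s (f, g) hq y]
        refine sum_congr rfl fun i _ => ?_
        rw [smul_smul]
        refine congrArg (ψ f g) (congrArg (y - ·) (congrArg (· • u) ?_))
        push_cast; ring) hec x
      rw [← this]
      refine sum_congr rfl fun i _ => ?_
      rw [he, smul_smul]
      refine congrArg (ψ f g) (congrArg (x - ·) (congrArg (· • u) ?_))
      push_cast; ring
    rw [sum_congr rfl hψc, sum_const, sum_const, card_range, nsmul_eq_mul, nsmul_eq_mul,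
      card_sdiff_of_subset (fun g hg => (mem_fib.1 hg).1), hF'c,
      Nat.cast_sub (hF'c ▸ card_le_card fun g hg => (mem_fib.1 hg).1)]
    push_cast
    field_simp
    ring
  intro x
  have : NeZero N := ⟨hN.ne'⟩
  let R := ↥(Λ.map (red (d := d) N))
  have : Fintype R := Fintype.ofFinite _
  choose lift hlift hred using fun ρ : R => AddSubgroup.mem_map.1 ρ.2
  let χ : (Fin d → ℤ) → (Fin d → ℤ) → ℂ := fun r z => ee ((dot r z : ℝ) / N)
  have hcongr : ∀ r a b, red N a = red N b → χ r a = χ r b := by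
    intro r a b e
    have : ∀ k, ∃ z, a k - b k = (N : ℤ) * z := fun k =>
      (ZMod.intCast_eq_intCast_iff_dvd_sub _ _ _).1 (congrFun e k).symm
    choose z hz using this
    refine ee_congr ⟨dot r z, ?_⟩
    rw [← sub_div, ← Int.cast_sub, ← map_sub, show a - b = (N : ℤ) • z from funext hz, dot_smul]
    push_cast
    field_simp
  -- transforms of periodic functions and their translates
  have htr : ∀ (r a : Fin d → ℤ), a ∈ Λ → ∀ θ : (Fin d → ℤ) → ℝ,
      (∀ z ∈ Λ, (N : ℤ) • z ∈ per θ) → ∀ y,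
      ∑ ρ : R, χ r (lift ρ) * (θ (y - lift ρ - a) : ℂ) =
        χ r (-a) * ∑ ρ : R, χ r (lift ρ) * (θ (y - lift ρ) : ℂ) := by
    intro r a ha θ hθ y
    rw [mul_sum]
    refine Fintype.sum_equiv (Equiv.addRight (⟨red N a, AddSubgroup.mem_map_of_mem _ ha⟩ : R)) _ _
      fun ρ => ?_
    set σ : R := ρ + ⟨red N a, AddSubgroup.mem_map_of_mem _ ha⟩ with hσ
    have e : red N (lift σ) = red N (lift ρ + a) := by
      rw [hred, map_add, hred]; rfl
    have hθe : θ (y - lift σ) = θ (y - lift ρ - a) := by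
      have : ∀ k, ∃ z, (lift ρ + a) k - lift σ k = (N : ℤ) * z := fun k =>
        (ZMod.intCast_eq_intCast_iff_dvd_sub _ _ _).1 (congrFun e k)
      choose z hz using this
      have hz' : lift ρ + a - lift σ = (N : ℤ) • z := funext hz
      have hzΛ : z ∈ Λ := hsat N z (by exact_mod_cast hN.ne')
        (hz' ▸ sub_mem (add_mem (hlift ρ) ha) (hlift σ))
      rw [show y - lift σ = y - lift ρ - a + (N : ℤ) • z by rw [← hz']; abel, hθ z hzΛ]
    simp only [Equiv.coe_addRight, ← hσ]
    rw [hθe, hcongr r _ _ e, ← mul_assoc]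
    congr 1
    simp only [χ, ← ee_add, map_add, map_neg]
    congr 1
    push_cast
    ring
  have hgper : ∀ z ∈ Λ, (N : ℤ) • z ∈ per g₀ := fun z hz y => by
    refine congrArg (· - (1 / (p : ℝ))) (sum_congr rfl fun i _ => ?_)
    rw [add_sub_right_comm]
    exact hper z hz _
  have hhat : ∀ (r y : Fin d → ℤ), ∑ ρ : R, χ r (lift ρ) * (g₀ (y - lift ρ) : ℂ) = 0 := by
    intro r y
    by_cases hmask : ∃ f ∈ F', ∑ g ∈ fib F' Λ f, χ (-r) g ≠ 0
    · obtain ⟨f, hf, hne⟩ := hmask
      have h1 : ∑ ρ : R, ∑ g ∈ fib F' Λ f, χ r (lift ρ) * (g₀ (y - lift ρ - (g - f)) : ℂ) = 0 := by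
        refine sum_eq_zero fun ρ _ => ?_
        rw [← mul_sum, ← Complex.ofReal_sum, hfibsum f hf, Complex.ofReal_zero, mul_zero]
      rw [sum_comm, sum_congr rfl fun g hg => htr r _ (mem_fib.1 hg).2 g₀ hgper y, ← sum_mul] at h1
      refine (mul_eq_zero.1 h1).resolve_left fun h0 => hne ?_
      have e : ∀ g, χ r (-(g - f)) = χ r f * χ (-r) g := fun g => by
        have hneg : dot (-r) g = -dot r g := by simp [dot_apply]
        simp only [χ, ← ee_add, map_neg, map_sub, hneg]
        congr 1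
        push_cast
        ring
      simp only [e, ← mul_sum] at h0
      exact (mul_eq_zero.1 h0).resolve_left (ee_ne_zero _)
    push Not at hmask
    -- every extension of the character to smooth orders kills the tile
    have hNR : (N : ℝ) = t * (p ^ m : ℕ) := by rw [hNtk]; push_cast; ring
    have htR : (t : ℝ) ≠ 0 := by exact_mod_cast ht.ne'
    have hext : ∀ (e : ℕ) (v : Fin d → ℤ), (∀ z ∈ Λ, dot v z = 0) →
        Zero F p (m + e) ((p : ℤ) ^ e • (-r) + v) := by
      intro e v hv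
      refine sum_eq_zero_of_fib Λ fun f hf => ?_
      have h1 := hmask (t • f) (mem_image_of_mem _ hf)
      have e1 : fib F' Λ (t • f) = (fib F Λ f).image (t • ·) := by
        ext g
        simp only [mem_fib, hF', scale, mem_image]
        constructor
        · rintro ⟨⟨g₁, hg₁, rfl⟩, hg⟩
          refine ⟨g₁, ⟨hg₁, hsat t _ (by exact_mod_cast ht.ne') ?_⟩, rfl⟩
          rw [natCast_zsmul, smul_sub]
          exact hg
        · rintro ⟨g₁, ⟨hg₁, hg⟩, rfl⟩
          refine ⟨⟨g₁, hg₁, rfl⟩, ?_⟩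
          rw [← smul_sub]
          exact nsmul_mem hg t
      rw [e1, sum_image fun a _ b _ h => scale_inj ht h] at h1
      have e2 : ∀ g ∈ fib F Λ f, ee ((dot ((p : ℤ) ^ e • (-r) + v) g : ℝ) / (p ^ (m + e) : ℕ)) =
          ee ((dot v f : ℝ) / (p ^ (m + e) : ℕ)) * χ (-r) (t • g) := by
        intro g hg
        have hvg : dot v g = dot v f := by
          have := hv _ (mem_fib.1 hg).2
          rw [map_sub] at this
          linarith
        have hd : dot ((p : ℤ) ^ e • (-r) + v) g = (p : ℤ) ^ e * dot (-r) g + dot v f := by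
          rw [← hvg]
          simp only [dot_apply, Pi.add_apply, Pi.smul_apply, smul_eq_mul, add_mul, mul_assoc,
            sum_add_distrib, ← mul_sum]
        simp only [χ, ← ee_add]
        congr 1
        rw [hd, ← natCast_zsmul, dot_smul, hNR]
        have : (p : ℝ) ≠ 0 := hpR
        push_cast
        rw [pow_add]
        field_simp
        ring
      rw [sum_congr rfl e2, ← mul_sum, h1, mul_zero]
    by_cases hw : toQ w ∈ perQ φ
    · -- the killed direction: the fibre operator has no such component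
      obtain ⟨c, hc, he⟩ := hlev m (-r) (by simpa using hext 0 0 fun z _ => by simp [dot_apply])
      have huΛ : u ∈ Λ := hu ▸ zsmul_mem (show w ∈ Λ from hw) _
      simp only [g₀, Complex.ofReal_sub, Complex.ofReal_sum, mul_sub, mul_sum, sum_sub_distrib]
      rw [sum_comm, sum_congr rfl fun i _ =>
        htr r _ (zsmul_mem huΛ ((i * (t * T₁) : ℕ) : ℤ)) φ (fun z hz => hper z hz) y, ← sum_mul]
      have hgeom : ∀ i : ℕ, χ r (-(((i * (t * T₁) : ℕ) : ℤ) • u)) =
          ee (((T₁ * c : ℤ) * i : ℤ) / ((p : ℕ) : ℝ)) := fun i => by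
        simp only [χ]
        congr 1
        have h1 : (dot (-r) w : ℝ) * (p : ℝ) ^ j = c * (p : ℝ) ^ m := by exact_mod_cast he
        have h2 : dot r (-(((i * (t * T₁) : ℕ) : ℤ) • u)) =
            ((i * (t * T₁) : ℕ) : ℤ) * (p : ℤ) ^ (j - 1) * dot (-r) w := by
          rw [hu, smul_smul, map_neg, dot_smul]
          simp only [dot_apply, Pi.neg_apply, neg_mul, sum_neg_distrib, mul_neg]
        rw [h2, hNR]
        obtain ⟨j', rfl⟩ : ∃ j', j = j' + 1 := ⟨j - 1, by omega⟩
        push_cast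
        rw [pow_succ] at h1
        field_simp
        linear_combination (i : ℝ) * h1
      have hz0 : ∑ i ∈ range p, χ r (-(((i * (t * T₁) : ℕ) : ℤ) • u)) = 0 := by
        rw [sum_congr rfl fun i _ => hgeom i]
        refine sum_range_ee hp.pos (fun h => ?_) (dvd_mul_left _ _)
        rcases (Nat.prime_iff_prime_int.1 hp).dvd_or_dvd h with h | h
        · exact (hp.coprime_iff_not_dvd.1 hT₁c.symm) (by exact_mod_cast h)
        · exact hc h
      rw [hz0, zero_mul, zero_sub, neg_eq_zero, ← sum_mul]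
      refine mul_eq_zero_of_left ?_ _
      -- the character is non-trivial on the periods
      have hwΛ : w ∈ Λ := hw
      have h1 := htr r w hwΛ (fun _ => 1) (fun z _ y => rfl) y
      simp only [Complex.ofReal_one, mul_one] at h1
      have hne : χ r (-w) ≠ 1 := by
        simp only [χ, Ne, ee_eq_one_iff]
        rintro ⟨z, hz⟩
        refine hc ?_
        have h1 : (dot (-r) w : ℝ) * (p : ℝ) ^ j = c * (p : ℝ) ^ m := by exact_mod_cast he
        have hd : (dot r (-w) : ℝ) = dot (-r) w := by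
          simp [dot_apply]
        rw [hd, hNR] at hz
        push_cast at hz
        field_simp at hz
        have h3 : ((p : ℝ) ^ m) * ((z * t) * (p : ℝ) ^ j - c) = 0 := by
          linear_combination h1 - ((p : ℝ) ^ j) * hz
        have h4 := (mul_eq_zero.1 h3).resolve_left (pow_ne_zero _ hpR)
        have h5 : c = z * t * (p : ℤ) ^ j := by
          have : (c : ℝ) = ((z * t * (p : ℤ) ^ j : ℤ) : ℝ) := by push_cast; linarith
          exact_mod_cast this
        rw [h5]
        exact Dvd.dvd.mul_left (dvd_pow_self _ (by omega)) _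
      by_contra h2
      exact hne (mul_right_cancel₀ h2 (h1.symm.trans (one_mul _).symm))
    · -- off the periods an extension of another level contradicts the hypothesis
      exfalso
      obtain ⟨v, hvp, hvw⟩ := exists_normal hw
      have hvΛ : ∀ z ∈ Λ, dot v z = 0 := fun z hz => by
        obtain ⟨c, hc, hcz⟩ := exists_multiple (show toQ z ∈ perQ φ from hz)
        have h1 := hvp _ hcz
        rw [dot_smul] at h1
        exact (mul_eq_zero.1 h1).resolve_left hc
      set E := j + (dot v w).natAbs with hE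
      obtain ⟨c, -, he⟩ := hlev _ _ (hext E v hvΛ)
      have hd : dot ((p : ℤ) ^ E • (-r) + v) w = (p : ℤ) ^ E * dot (-r) w + dot v w := by
        simp only [dot_apply, Pi.add_apply, Pi.smul_apply, smul_eq_mul, add_mul, mul_assoc,
          sum_add_distrib, ← mul_sum]
      rw [hd, add_mul] at he
      have hdvd : (p : ℤ) ^ (dot v w).natAbs ∣ dot v w := by
        have hp0 : (p : ℤ) ^ j ≠ 0 := pow_ne_zero _ (by exact_mod_cast hp.ne_zero)
        refine (mul_dvd_mul_iff_right hp0).1
          ⟨c * (p : ℤ) ^ m - dot (-r) w * (p : ℤ) ^ j, ?_⟩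
        rw [hE] at he
        ring_nf at he ⊢
        linear_combination he
      have h1 : p ^ (dot v w).natAbs ≤ (dot v w).natAbs := Nat.le_of_dvd (Int.natAbs_pos.2 hvw) (by
        have := Int.natAbs_dvd_natAbs.2 hdvd
        rwa [Int.natAbs_pow, Int.natAbs_natCast] at this)
      exact absurd h1 (not_le.2 (Nat.lt_pow_self hp.one_lt))
  -- characters separate the residues
  let r' : (Fin d → Fin N) → Fin d → ℤ := fun r k => ((r k : ℕ) : ℤ)
  obtain ⟨ρ₀, hρ₀⟩ : ∃ ρ₀ : R, ρ₀ = 0 := ⟨0, rfl⟩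
  have h3 : ∑ r : Fin d → Fin N, ∑ ρ : R, χ (r' r) (lift ρ) * (g₀ (x - lift ρ) : ℂ) = 0 :=
    sum_eq_zero fun r _ => hhat _ x
  rw [sum_comm, sum_eq_single ρ₀] at h3
  · rw [← sum_mul] at h3
    simp only [χ, r', sum_char hN] at h3
    rw [if_pos (by rw [hred, hρ₀]; rfl)] at h3
    have h4 := (mul_eq_zero.1 h3).resolve_left (pow_ne_zero _ (Nat.cast_ne_zero.2 hN.ne'))
    have h5 : g₀ (x - lift ρ₀) = 0 := by exact_mod_cast h4
    have h6 : ∀ k, ∃ z, lift ρ₀ k = (N : ℤ) * z := fun k => by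
      have : (lift ρ₀ k : ZMod N) = 0 := by
        have := congrFun (hred ρ₀) k
        rw [hρ₀] at this ⊢
        exact this
      exact (ZMod.intCast_zmod_eq_zero_iff_dvd _ _).1 this
    choose z hz using h6
    have hzΛ : z ∈ Λ := hsat N z (by exact_mod_cast hN.ne')
      (show (N : ℤ) • z ∈ Λ from (funext hz : lift ρ₀ = (N : ℤ) • z) ▸ hlift ρ₀)
    rw [← hgper z hzΛ (x - lift ρ₀), ← (funext hz : lift ρ₀ = (N : ℤ) • z),
      sub_add_cancel] at h5
    exact h5
  · intro ρ _ hne
    rw [← sum_mul]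
    simp only [χ, r', sum_char hN]
    rw [if_neg, zero_mul]
    rw [hred]
    intro h
    exact hne (by rw [hρ₀]; exact Subtype.ext h)
  · simp

end Vale.Agent.P043.Space.Square
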