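import Mathlib
import Vale.Agent.P043.Space.Square.Const

/-!
Helper for P043: every tile of `ℤ^3` with `p ^ 2` points has a periodic tiling.
-/

namespace Vale.Agent.P043.Space.Square

open Finset Masks

/-- Tiles of `ℤ^3` with `p ^ 2` points have periodic tilings. -/
theorem periodic_of_square {F : Finset (Fin 3 → ℤ)} {p : ℕ} (hp : p.Prime) (hF : F.card = p ^ 2)
    {A : Set (Fin 3 → ℤ)} (hA : Tiles A F) :
    ∃ (A' : Set (Fin 3 → ℤ)) (P : ℤ), 0 < P ∧ Tiles A' F ∧ ∀ y w, (y + P • w ∈ A' ↔ y ∈ A') := by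
  classical
  by_cases hmc : MaskCond F
  · exact periodic_of_maskCond hmc hA
  simp only [MaskCond, not_forall, not_exists, not_and] at hmc
  obtain ⟨a, b, hab, M, r₀, hM, hsm, hkill⟩ := hmc
  obtain ⟨e, he⟩ := exists_dvd_pow F.card hM hsm
  rw [hF, ← pow_mul, Nat.dvd_prime_pow hp] at he
  obtain ⟨m, -, rfl⟩ := he
  have hne : F.Nonempty := card_pos.1 (by rw [hF]; exact pow_pos hp.pos 2)
  obtain ⟨w, s, hsw, hker⟩ := exists_generator hab
  set Λ := kerGroup a b with hΛ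
  have hΛm : ∀ v ∈ Λ, ∃ t : ℤ, v = t • w := fun v hv => (hker v).1 hv
  have hk : ∀ f ∈ F, ∑ g ∈ fib F Λ f, ee ((dot r₀ g : ℝ) / (p ^ m : ℕ)) = 0 := by
    intro f hf
    rw [hΛ, coe_kerGroup]
    by_contra h
    exact hkill f hf h
  -- the level of the killed direction
  obtain ⟨j, hj, hl⟩ : ∃ j, 1 ≤ j ∧ Level p j m r₀ w := by
    rcases exists_level hp m r₀ w with ⟨q, hq⟩ | ⟨i, hi, -, hl⟩
    · exfalso
      obtain ⟨f, hf⟩ := hne
      have h1 := hk f hf
      have hterm : ∀ g ∈ fib F Λ f, ee ((dot r₀ g : ℝ) / (p ^ m : ℕ)) =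
          ee ((dot r₀ f : ℝ) / (p ^ m : ℕ)) := by
        intro g hg
        obtain ⟨t, ht⟩ := hΛm _ (mem_fib.1 hg).2
        refine ee_congr ⟨t * q, ?_⟩
        have hd : (dot r₀ g : ℤ) - dot r₀ f = t * ((p : ℤ) ^ m * q) := by
          rw [← map_sub, ht, dot_smul, hq]
        have : ((p ^ m : ℕ) : ℝ) ≠ 0 := by exact_mod_cast pow_ne_zero m hp.ne_zero
        rw [← sub_div, div_eq_iff this, ← Int.cast_sub, hd]
        push_cast
        ring
      rw [sum_congr rfl hterm, sum_const, nsmul_eq_mul] at h1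
      rcases mul_eq_zero.1 h1 with h | h
      · rw [Nat.cast_eq_zero, card_eq_zero] at h
        exact notMem_empty f (h ▸ mem_fib.2 ⟨hf, by simp⟩)
      · exact ee_ne_zero _ h
    · exact ⟨i, hi, hl⟩
  have hz : ∀ N r, Level p j N r w → Zero F p N r :=
    fun N r h => zero_of_level hp Λ hΛm hk hl h
  rcases chain_or_level hne hp hj hsw hz with ⟨N, K, r, hK, hKN, h1, h2⟩ | hlev
  · exact periodic_of_chain hp hF hK hKN h1 h2
  exfalso
  obtain ⟨T, -, -, hT⟩ := exists_flat hp hF hj hlev 3 (ind A) (eqnAll_ind hA) (by omega)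
  have h0 := hT 0
  obtain ⟨z, hz⟩ := isI_sum (s := range p)
    (f := fun i => ind A (0 - ((i * T : ℕ) : ℤ) • ((p : ℤ) ^ (j - 1) • w))) fun i _ => isI_ind A _
  rw [hz] at h0
  have hp1 : (1 : ℝ) < p := by exact_mod_cast hp.one_lt
  have h1 : (z : ℝ) * p = 1 := by
    rw [h0]; field_simp
  have h2 : z * (p : ℤ) = 1 := by exact_mod_cast h1
  rcases Int.eq_one_or_neg_one_of_mul_eq_one' h2 with ⟨-, h⟩ | ⟨-, h⟩ <;>
    exact absurd (show p = 1 by omega) hp.ne_one

end Vale.Agent.P043.Space.Square
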